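import Vale.Agent.P060.Defs

namespace Vale.Agent.P060

open SimpleGraph

variable {V : Type*} {G : SimpleGraph V}

/-- A family of branch sets inside `s`. -/
def IsModel (G : SimpleGraph V) (s : Set V) {t : ℕ} (B : Fin t → Set V) : Prop :=
  (∀ i, B i ⊆ s) ∧
  (∀ i, (G.induce (B i)).Connected) ∧
  (∀ i j, i ≠ j → Disjoint (B i) (B j)) ∧
  (∀ i j, i ≠ j → ∃ x ∈ B i, ∃ y ∈ B j, G.Adj x y)

/-- a proper colouring of `s` with colours `< t`. -/
def ColOn (G : SimpleGraph V) (s : Set V) (t : ℕ) : Prop :=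
  ∃ c : V → ℕ, (∀ v ∈ s, c v < t) ∧ ∀ v ∈ s, ∀ w ∈ s, G.Adj v w → c v ≠ c w

theorem IsModel.mono {s s' : Set V} {t : ℕ} {B : Fin t → Set V} (h : IsModel G s B)
    (hs : s ⊆ s') : IsModel G s' B :=
  ⟨fun i => (h.1 i).trans hs, h.2.1, h.2.2.1, h.2.2.2⟩

theorem IsModel.cons {s : Set V} {t : ℕ} {B : Fin t → Set V} (h : IsModel G s B)
    {C : Set V} (hC : (G.induce C).Connected) (hdisj : Disjoint C s)
    (hadj : ∀ i, ∃ x ∈ C, ∃ y ∈ B i, G.Adj x y) :
    IsModel G (s ∪ C) (Fin.cons C B : Fin (t + 1) → Set V) := by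
  obtain ⟨h1, h2, h3, h4⟩ := h
  refine ⟨?_, ?_, ?_, ?_⟩
  · intro i
    refine Fin.cases ?_ (fun i => ?_) i
    · simp
    · simpa using (h1 i).trans Set.subset_union_left
  · intro i
    refine Fin.cases ?_ (fun i => ?_) i
    · rw [Fin.cons_zero]; exact hC
    · rw [Fin.cons_succ]; exact h2 i
  · intro i
    refine Fin.cases ?_ (fun i => ?_) i
    · intro j
      refine Fin.cases ?_ (fun j => ?_) j
      · intro hij; exact absurd rfl hij
      · intro _
        simpa using hdisj.mono_right (h1 j)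
    · intro j
      refine Fin.cases ?_ (fun j => ?_) j
      · intro _
        simpa using (hdisj.mono_right (h1 i)).symm
      · intro hij
        have : i ≠ j := fun h => hij (by rw [h])
        simpa using h3 i j this
  · intro i
    refine Fin.cases ?_ (fun i => ?_) i
    · intro j
      refine Fin.cases ?_ (fun j => ?_) j
      · intro hij; exact absurd rfl hij
      · intro _
        simpa using hadj j
    · intro j
      refine Fin.cases ?_ (fun j => ?_) j
      · intro _
        obtain ⟨x, hx, y, hy, hxy⟩ := hadj i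
        exact ⟨y, by simpa using hy, x, by simpa using hx, hxy.symm⟩
      · intro hij
        have : i ≠ j := fun h => hij (by rw [h])
        simpa using h4 i j this

theorem ColOn.add {s : Set V} {t : ℕ} (h : ColOn G s t) {I : Set V}
    (hI : ∀ v ∈ I, ∀ w ∈ I, ¬ G.Adj v w) : ColOn G (s ∪ I) (t + 1) := by
  classical
  obtain ⟨c, hc1, hc2⟩ := h
  refine ⟨fun v => if v ∈ I then t else c v, ?_, ?_⟩
  · intro v hv
    by_cases hvI : v ∈ I
    · simp [hvI]
    · have : v ∈ s := hv.resolve_right hvI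
      simp only [hvI, if_false]
      exact (hc1 v this).trans (Nat.lt_succ_self t)
  · intro v hv w hw hvw
    by_cases hvI : v ∈ I <;> by_cases hwI : w ∈ I
    · exact absurd hvw (hI v hvI w hwI)
    · have : w ∈ s := hw.resolve_right hwI
      simp only [hvI, hwI, if_true, if_false]
      exact (hc1 w this).ne'
    · have : v ∈ s := hv.resolve_right hvI
      simp only [hvI, hwI, if_true, if_false]
      exact (hc1 v this).ne
    · simp only [hvI, hwI, if_false]
      exact hc2 v (hv.resolve_right hvI) w (hw.resolve_right hwI) hvw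

theorem ColOn.colorable {t : ℕ} (h : ColOn G Set.univ t) : G.Colorable t := by
  obtain ⟨c, hc1, hc2⟩ := h
  refine ⟨Coloring.mk (fun v => ⟨c v, hc1 v (Set.mem_univ v)⟩) ?_⟩
  intro v w hvw h
  exact hc2 v (Set.mem_univ v) w (Set.mem_univ w) hvw (by simpa using congrArg Fin.val h)

theorem IsModel.hasCliqueMinor {s : Set V} {t : ℕ} {B : Fin t → Set V} (h : IsModel G s B) :
    HasCliqueMinor G t :=
  ⟨B, h.2.1, h.2.2.1, h.2.2.2⟩

theorem HasCliqueMinor.mono {t t' : ℕ} (h : HasCliqueMinor G t) (ht : t' ≤ t) :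
    HasCliqueMinor G t' := by
  obtain ⟨B, h1, h2, h3⟩ := h
  refine ⟨fun i => B (Fin.castLE ht i), fun i => h1 _, fun i j hij => h2 _ _ ?_,
    fun i j hij => h3 _ _ ?_⟩
  · intro h; exact hij (Fin.castLE_injective ht h)
  · intro h; exact hij (Fin.castLE_injective ht h)

/-- From a colouring with `t` colours and a `K_t` minor, Hadwiger's conjecture for `G`. -/
theorem hadwiger_of_exists (h : ∃ t, G.Colorable t ∧ HasCliqueMinor G t) :
    ∀ t : ℕ, ¬ HasCliqueMinor G (t + 1) → G.Colorable t := by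
  obtain ⟨t0, hc, hm⟩ := h
  intro t ht
  by_cases hle : t0 ≤ t
  · exact hc.mono hle
  · exact absurd (hm.mono (by omega)) ht

end Vale.Agent.P060
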