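import Vale.Agent.P060.Basic

namespace Vale.Agent.P060

open SimpleGraph

variable {V : Type*} {G : SimpleGraph V}

theorem induce_singleton_connected' (v : V) : (G.induce ({v} : Set V)).Connected := by
  have : Subsingleton (({v} : Set V) : Type _) := by
    constructor
    rintro ⟨a, ha⟩ ⟨b, hb⟩
    simp only [Set.mem_singleton_iff] at ha hb
    subst ha; subst hb; rfl
  have : Nonempty (({v} : Set V) : Type _) := ⟨⟨v, rfl⟩⟩
  exact ⟨Preconnected.of_subsingleton⟩

theorem twoK2_aux
    (hG : ∀ a b c d : V, G.Adj a b → G.Adj c d →
      G.Adj a c ∨ G.Adj a d ∨ G.Adj b c ∨ G.Adj b d) (s : Finset V) :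
    ∃ t, ColOn G (s : Set V) t ∧ ∃ B : Fin t → Set V, IsModel G (s : Set V) B := by
  classical
  induction s using Finset.strongInduction with
  | H s ih =>
    rcases s.eq_empty_or_nonempty with rfl | hs
    · refine ⟨0, ⟨fun _ => 0, by simp, by simp⟩, fun i => i.elim0, ?_⟩
      exact ⟨fun i => i.elim0, fun i => i.elim0, fun i => i.elim0, fun i => i.elim0⟩
    · set N : V → Finset V := fun v => s.filter (fun w => w ≠ v ∧ ¬ G.Adj v w) with hN
      have memN : ∀ v w, w ∈ N v ↔ w ∈ s ∧ w ≠ v ∧ ¬ G.Adj v w := by
        intro v w; simp [hN]
      obtain ⟨v, hvs, hvmin⟩ := Finset.exists_min_image s (fun v => (N v).card) hs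
      by_cases hA : ∀ x ∈ N v, ∀ y ∈ N v, ¬ G.Adj x y
      · -- the non-neighbours of `v` form an independent set
        set I : Finset V := insert v (N v) with hI
        have hIs : I ⊆ s := by
          intro a ha
          rcases Finset.mem_insert.1 ha with rfl | ha
          · exact hvs
          · exact ((memN v a).1 ha).1
        have hss : s \ I ⊂ s := by
          refine Finset.ssubset_iff_subset_ne.2 ⟨Finset.sdiff_subset, ?_⟩
          intro h
          have : v ∈ s \ I := by rw [h]; exact hvs
          exact (Finset.mem_sdiff.1 this).2 (Finset.mem_insert_self _ _)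
        obtain ⟨t, hcol, B, hB⟩ := ih (s \ I) hss
        have hunion : ((s \ I : Finset V) : Set V) ∪ (I : Set V) = (s : Set V) := by
          rw [← Finset.coe_union, Finset.sdiff_union_of_subset hIs]
        refine ⟨t + 1, ?_, Fin.cons {v} B, ?_⟩
        · rw [← hunion]
          apply hcol.add
          intro a ha b hb
          rcases Finset.mem_insert.1 (Finset.mem_coe.1 ha) with rfl | ha
          · rcases Finset.mem_insert.1 (Finset.mem_coe.1 hb) with rfl | hb
            · exact G.irrefl
            · exact ((memN _ b).1 hb).2.2
          · rcases Finset.mem_insert.1 (Finset.mem_coe.1 hb) with rfl | hb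
            · exact fun h => ((memN _ a).1 ha).2.2 h.symm
            · exact hA a ha b hb
        · have := hB.cons (C := {v}) (induce_singleton_connected' v) ?_ ?_
          · refine this.mono ?_
            intro a ha
            rcases ha with ha | ha
            · exact Finset.mem_coe.2 (Finset.mem_sdiff.1 (Finset.mem_coe.1 ha)).1
            · rw [Set.mem_singleton_iff.1 ha]; exact Finset.mem_coe.2 hvs
          · rw [Set.disjoint_singleton_left]
            intro h
            exact (Finset.mem_sdiff.1 (Finset.mem_coe.1 h)).2 (Finset.mem_insert_self _ _)
          · intro i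
            obtain ⟨⟨y, hy⟩⟩ := (hB.2.1 i).nonempty
            have hy' := Finset.mem_sdiff.1 (Finset.mem_coe.1 (hB.1 i hy))
            refine ⟨v, rfl, y, hy, ?_⟩
            by_contra hvy
            apply hy'.2
            by_cases hyv : y = v
            · rw [hyv]; exact Finset.mem_insert_self _ _
            · exact Finset.mem_insert_of_mem ((memN v y).2 ⟨hy'.1, hyv, hvy⟩)
      · -- an induced path on four vertices in the complement
        push Not at hA
        obtain ⟨x, hx, y, hy, hxy⟩ := hA
        obtain ⟨hxs, hxv, hvx⟩ := (memN v x).1 hx
        obtain ⟨hys, hyv, hvy⟩ := (memN v y).1 hy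
        -- find x' nonadjacent to x, adjacent to v
        have hex : ∃ x' ∈ N x, x' ≠ v ∧ x' ∉ N v := by
          by_contra hcon
          push Not at hcon
          have hsub : N x ⊆ ((insert v (N v)).erase x).erase y := by
            intro a ha
            have ha' := (memN x a).1 ha
            refine Finset.mem_erase.2 ⟨?_, Finset.mem_erase.2 ⟨ha'.2.1, ?_⟩⟩
            · rintro rfl; exact ha'.2.2 hxy
            · by_cases hav : a = v
              · rw [hav]; exact Finset.mem_insert_self _ _
              · exact Finset.mem_insert_of_mem (hcon a ha hav)
          have hvN : v ∉ N v := fun h => ((memN v v).1 h).2.1 rfl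
          have hxmem : x ∈ insert v (N v) := Finset.mem_insert_of_mem hx
          have hymem : y ∈ (insert v (N v)).erase x :=
            Finset.mem_erase.2 ⟨fun h => G.irrefl (h ▸ hxy), Finset.mem_insert_of_mem hy⟩
          have hcard := Finset.card_le_card hsub
          rw [Finset.card_erase_of_mem hymem, Finset.card_erase_of_mem hxmem,
            Finset.card_insert_of_notMem hvN] at hcard
          have hmin := hvmin x hxs
          have hpos : 0 < (N v).card := Finset.card_pos.2 ⟨x, hx⟩
          omega
        obtain ⟨x', hx', hx'v, hx'N⟩ := hex
        obtain ⟨hx's, hx'x, hxx'⟩ := (memN x x').1 hx'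
        have hvx' : G.Adj v x' := by
          by_contra h
          exact hx'N ((memN v x').2 ⟨hx's, hx'v, h⟩)
        have hx'y : G.Adj x' y := by
          rcases hG x' v x y hvx'.symm hxy with h | h | h | h
          · exact absurd h.symm hxx'
          · exact h
          · exact absurd h hvx
          · exact absurd h hvy
        -- the two independent sets
        set R1 : Finset V := s.filter (fun r => ¬ G.Adj x' r ∧ ¬ G.Adj v r) with hR1
        set R2 : Finset V := s.filter (fun r => ¬ G.Adj x r ∧ ¬ G.Adj y r) with hR2
        have memR1 : ∀ r, r ∈ R1 ↔ r ∈ s ∧ ¬ G.Adj x' r ∧ ¬ G.Adj v r := by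
          intro r; simp [hR1]
        have memR2 : ∀ r, r ∈ R2 ↔ r ∈ s ∧ ¬ G.Adj x r ∧ ¬ G.Adj y r := by
          intro r; simp [hR2]
        set I1 : Finset V := insert x' R1 with hI1
        set I2 : Finset V := insert y R2 with hI2
        have hI1s : I1 ⊆ s := by
          intro a ha
          rcases Finset.mem_insert.1 ha with rfl | ha
          · exact hx's
          · exact ((memR1 a).1 ha).1
        have hI2s : I2 ⊆ s := by
          intro a ha
          rcases Finset.mem_insert.1 ha with rfl | ha
          · exact hys
          · exact ((memR2 a).1 ha).1
        have hI1ind : ∀ a ∈ (I1 : Set V), ∀ b ∈ (I1 : Set V), ¬ G.Adj a b := by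
          intro a ha b hb
          rcases Finset.mem_insert.1 (Finset.mem_coe.1 ha) with rfl | ha
          · rcases Finset.mem_insert.1 (Finset.mem_coe.1 hb) with rfl | hb
            · exact G.irrefl
            · exact ((memR1 b).1 hb).2.1
          · rcases Finset.mem_insert.1 (Finset.mem_coe.1 hb) with rfl | hb
            · exact fun h => ((memR1 a).1 ha).2.1 h.symm
            · intro hab
              have ha' := ((memR1 a).1 ha).2
              have hb' := ((memR1 b).1 hb).2
              rcases hG x' v a b hvx'.symm hab with h | h | h | h
              · exact ha'.1 h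
              · exact hb'.1 h
              · exact ha'.2 h
              · exact hb'.2 h
        have hI2ind : ∀ a ∈ (I2 : Set V), ∀ b ∈ (I2 : Set V), ¬ G.Adj a b := by
          intro a ha b hb
          rcases Finset.mem_insert.1 (Finset.mem_coe.1 ha) with rfl | ha
          · rcases Finset.mem_insert.1 (Finset.mem_coe.1 hb) with rfl | hb
            · exact G.irrefl
            · exact ((memR2 b).1 hb).2.2
          · rcases Finset.mem_insert.1 (Finset.mem_coe.1 hb) with rfl | hb
            · exact fun h => ((memR2 a).1 ha).2.2 h.symm
            · intro hab
              have ha' := ((memR2 a).1 ha).2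
              have hb' := ((memR2 b).1 hb).2
              rcases hG x y a b hxy hab with h | h | h | h
              · exact ha'.1 h
              · exact hb'.1 h
              · exact ha'.2 h
              · exact hb'.2 h
        set s' : Finset V := s \ (I1 ∪ I2) with hs'
        have hss : s' ⊂ s := by
          refine Finset.ssubset_iff_subset_ne.2 ⟨Finset.sdiff_subset, ?_⟩
          intro h
          have : y ∈ s' := by rw [h]; exact hys
          exact (Finset.mem_sdiff.1 this).2
            (Finset.mem_union_right _ (Finset.mem_insert_self _ _))
        obtain ⟨t, hcol, B, hB⟩ := ih s' hss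
        have hunion : ((s' : Set V) ∪ (I1 : Set V)) ∪ (I2 : Set V) = (s : Set V) := by
          rw [Set.union_assoc, ← Finset.coe_union, ← Finset.coe_union, hs',
            Finset.sdiff_union_of_subset (Finset.union_subset hI1s hI2s)]
        have mems' : ∀ z, z ∈ (s' : Set V) → z ∈ s ∧ z ∉ I1 ∧ z ∉ I2 := by
          intro z hz
          have := Finset.mem_sdiff.1 (Finset.mem_coe.1 hz)
          exact ⟨this.1, fun h => this.2 (Finset.mem_union_left _ h),
            fun h => this.2 (Finset.mem_union_right _ h)⟩
        have hvI2 : v ∈ I2 := Finset.mem_insert_of_mem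
          ((memR2 v).2 ⟨hvs, fun h => hvx h.symm, fun h => hvy h.symm⟩)
        have hxI1 : x ∈ I1 := Finset.mem_insert_of_mem
          ((memR1 x).2 ⟨hxs, fun h => hxx' h.symm, hvx⟩)
        refine ⟨t + 1 + 1, ?_, Fin.cons {x, y} (Fin.cons {x', v} B), ?_⟩
        · rw [← hunion]
          exact (hcol.add hI1ind).add hI2ind
        · have h1 := hB.cons (C := {x', v}) (induce_pair_connected_of_adj hvx'.symm) ?_ ?_
          · have h2 := h1.cons (C := {x, y}) (induce_pair_connected_of_adj hxy) ?_ ?_
            · refine h2.mono ?_
              intro a ha
              rcases ha with (ha | ha) | ha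
              · exact Finset.mem_coe.2 (mems' a ha).1
              · rcases ha with rfl | ha
                · exact Finset.mem_coe.2 hx's
                · rw [Set.mem_singleton_iff.1 ha]; exact Finset.mem_coe.2 hvs
              · rcases ha with rfl | ha
                · exact Finset.mem_coe.2 hxs
                · rw [Set.mem_singleton_iff.1 ha]; exact Finset.mem_coe.2 hys
            · rw [Set.disjoint_left]
              intro a ha ha2
              rcases ha with rfl | ha
              · rcases ha2 with ha2 | ha2
                · exact (mems' _ ha2).2.1 hxI1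
                · rcases ha2 with h | h
                  · exact hx'x h.symm
                  · exact hxv (Set.mem_singleton_iff.1 h)
              · rw [Set.mem_singleton_iff] at ha
                subst ha
                rcases ha2 with ha2 | ha2
                · exact (mems' _ ha2).2.2 (Finset.mem_insert_self _ _)
                · rcases ha2 with h | h
                  · exact G.irrefl (h ▸ hx'y)
                  · exact hyv (Set.mem_singleton_iff.1 h)
            · intro i
              refine Fin.cases ?_ (fun i => ?_) i
              · exact ⟨y, by simp, x', by simp, hx'y.symm⟩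
              · obtain ⟨⟨z, hz⟩⟩ := (hB.2.1 i).nonempty
                have hz' := mems' z (hB.1 i hz)
                have : G.Adj x z ∨ G.Adj y z := by
                  by_contra hcon
                  push Not at hcon
                  exact hz'.2.2 (Finset.mem_insert_of_mem ((memR2 z).2 ⟨hz'.1, hcon.1, hcon.2⟩))
                rcases this with h | h
                · exact ⟨x, by simp, z, by simpa using hz, h⟩
                · exact ⟨y, by simp, z, by simpa using hz, h⟩
          · rw [Set.disjoint_left]
            intro a ha ha2
            rcases ha with rfl | ha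
            · exact (mems' _ ha2).2.1 (Finset.mem_insert_self _ _)
            · rw [Set.mem_singleton_iff] at ha
              subst ha
              exact (mems' _ ha2).2.2 hvI2
          · intro i
            obtain ⟨⟨z, hz⟩⟩ := (hB.2.1 i).nonempty
            have hz' := mems' z (hB.1 i hz)
            have : G.Adj x' z ∨ G.Adj v z := by
              by_contra hcon
              push Not at hcon
              exact hz'.2.1 (Finset.mem_insert_of_mem ((memR1 z).2 ⟨hz'.1, hcon.1, hcon.2⟩))
            rcases this with h | h
            · exact ⟨x', by simp, z, hz, h⟩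
            · exact ⟨v, by simp, z, hz, h⟩

theorem twoK2_main [Fintype V]
    (hG : ∀ a b c d : V, G.Adj a b → G.Adj c d →
      G.Adj a c ∨ G.Adj a d ∨ G.Adj b c ∨ G.Adj b d) :
    ∃ t, G.Colorable t ∧ HasCliqueMinor G t := by
  obtain ⟨t, hc, B, hB⟩ := twoK2_aux hG (Finset.univ : Finset V)
  refine ⟨t, ?_, hB.hasCliqueMinor⟩
  apply ColOn.colorable
  simpa using hc

end Vale.Agent.P060
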